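import Crest.Agent.X261.Psh.Defs

/-!
# Row 261, package TWO (helper15), file `DS`

`DS M` : the part of the energy calculus that is needed for plurisubharmonic variation.
`Q` = continuous compactly supported `ω`-psh functions `≤ 0`, `D = -E`, `JP` = families over the
closed unit disc that are jointly `ω`-psh on the open disc.

`Fam S O F` : a family of feasible sets `F e ⊆ Q` (`e ∈ O`) that is convex, has strict elements
and satisfies the maximum principle on affine discs.  `fam_of_con` builds one from constraints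
`f ≤ a`, `f (κ e w) ≤ γ e w` (`w` in a compact set).
-/

set_option autoImplicit false
set_option linter.dupNamespace false

open Set Filter Topology Metric

noncomputable section

namespace Crest.Agent.X261.Two

open Crest.Agent.R275.FL884 (DiscIn)

/-- energy calculus with holomorphic discs -/
structure DS (M : Type*) [TopologicalSpace M] where
  Q : Set (M → ℝ)
  D : (M → ℝ) → ℝ
  JP : (ℂ → M → ℝ) → Prop
  zero_mem : (0 : M → ℝ) ∈ Q
  D_zero : D 0 = 0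
  convex : Convex ℝ Q
  cont : ∀ f ∈ Q, Continuous f
  nonpos : ∀ f ∈ Q, f ≤ 0
  cpt : ∀ f ∈ Q, HasCompactSupport f
  sup_mem : ∀ f ∈ Q, ∀ g ∈ Q, f ⊔ g ∈ Q
  tr_mem : ∀ f ∈ Q, ∀ s : ℝ, 0 ≤ s → (f ⊔ fun _ => -s) ∈ Q
  maxs_mem : ∀ a ∈ Q, ∀ b ∈ Q, ∀ s : ℝ, 0 ≤ s → (b ⊔ fun x => a x - s) ∈ Q
  anti : ∀ f ∈ Q, ∀ g ∈ Q, f ≤ g → D g ≤ D f
  lip : ∀ K : Set M, IsCompact K → ∀ T : ℝ, ∃ C : ℝ, 0 ≤ C ∧ ∀ f ∈ Q, ∀ g ∈ Q,
    (∀ x ∉ K, f x = 0) → (∀ x ∉ K, g x = 0) → (∀ x, -T ≤ f x) → (∀ x, -T ≤ g x) →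
    ∀ ε : ℝ, 0 ≤ ε → (∀ x, g x ≤ f x + ε) → D f ≤ D g + C * ε
  bfun : ∀ K : Set M, IsCompact K → ∀ T : ℝ, ∃ b ∈ Q, ∀ x ∈ K, b x ≤ -T
  J_mem : ∀ V, JP V → ∀ w : ℂ, ‖w‖ ≤ 1 → V w ∈ Q
  J_sup : ∀ V W, JP V → JP W → JP fun w => V w ⊔ W w
  J_tr : ∀ V, JP V → ∀ α β : ℂ, (∀ w : ℂ, ‖w‖ ≤ 1 → 0 ≤ (α + w * β).re) →
    JP fun w => V w ⊔ fun _ => -(α + w * β).re
  J_sups : ∀ V W, JP V → JP W → ∀ α β : ℂ, (∀ w : ℂ, ‖w‖ ≤ 1 → 0 ≤ (α + w * β).re) →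
    JP fun w => V w ⊔ fun x => W w x - (α + w * β).re
  J_mp : ∀ V, JP V → ∀ (x : M) (c : ℝ), (∀ w : ℂ, ‖w‖ = 1 → V w x ≤ c) → V 0 x ≤ c
  /-- DISC (i): `E` is subharmonic along jointly psh families -/
  J_sub : ∀ V, JP V → ∀ g : ℂ → ℝ, Continuous g → (∀ w : ℂ, ‖w‖ = 1 → -D (V w) ≤ g w) →
    -D (V 0) ≤ Real.circleAverage g 0 1
  /-- DISC (ii): `ε`-Perron solution for boundary data `∑ ρ i w • β i` -/
  J_ex : ∀ (ι : Type) [Fintype ι] (β : ι → M → ℝ) (ρ : ι → ℂ → ℝ), (∀ i, β i ∈ Q) →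
    (∀ i, Continuous (ρ i)) → (∀ i w, 0 ≤ ρ i w) → (∀ w, ∑ i, ρ i w = 1) →
    ∀ ε : ℝ, 0 < ε → ∃ V, JP V ∧ (∀ w : ℂ, ‖w‖ = 1 → V w ≤ ∑ i, ρ i w • β i) ∧
      D (V 0) ≤ Real.circleAverage (fun w => D (∑ i, ρ i w • β i)) 0 1 + ε

variable {M : Type*} [TopologicalSpace M]

namespace DS

variable (S : DS M)

/-- least energy of a feasible set -/
def dep (F : Set (M → ℝ)) : ℝ := sInf (S.D '' F)

/-- the two-pole value -/
def val (f g : M → ℝ) (s : ℝ) : ℝ := S.D f + S.D g - S.D ((f ⊔ g) ⊔ fun _ => -s)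

/-- the two-pole functional -/
def JJ (F G : Set (M → ℝ)) (s : ℝ) : ℝ := sInf (image2 (fun f g => S.val f g s) F G)

variable {S}

theorem D_nonneg {f : M → ℝ} (hf : f ∈ S.Q) : 0 ≤ S.D f :=
  S.D_zero ▸ S.anti f hf 0 S.zero_mem (S.nonpos f hf)

theorem val_ge {f g : M → ℝ} (hf : f ∈ S.Q) (hg : g ∈ S.Q) {s : ℝ} (hs : 0 ≤ s) :
    S.D g ≤ S.val f g s := by
  have := S.anti f hf _ (S.tr_mem _ (S.sup_mem f hf g hg) s hs) (le_sup_left.trans le_sup_left)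
  unfold val; linarith

theorem val_nonneg {f g : M → ℝ} (hf : f ∈ S.Q) (hg : g ∈ S.Q) {s : ℝ} (hs : 0 ≤ s) :
    0 ≤ S.val f g s := (D_nonneg hg).trans (val_ge hf hg hs)


theorem val_le {f g : M → ℝ} (hf : f ∈ S.Q) (hg : g ∈ S.Q) {s : ℝ} (hs : 0 ≤ s) :
    S.val f g s ≤ S.D f + S.D g := by
  have := D_nonneg (S.tr_mem _ (S.sup_mem f hf g hg) s hs)
  unfold val; linarith

theorem val_zero {f g : M → ℝ} (hf : f ∈ S.Q) (hg : g ∈ S.Q) : S.val f g 0 = S.D f + S.D g := by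
  have : ((f ⊔ g) ⊔ fun _ => -(0 : ℝ)) = 0 := by
    refine le_antisymm (sup_le (sup_le (S.nonpos f hf) (S.nonpos g hg)) fun x => by simp) ?_
    exact le_trans (fun x => by simp) le_sup_right
  unfold val; rw [this, S.D_zero]; ring

theorem dep_bdd {F : Set (M → ℝ)} (hF : F ⊆ S.Q) : BddBelow (S.D '' F) :=
  ⟨0, by rintro _ ⟨f, hf, rfl⟩; exact D_nonneg (hF hf)⟩

theorem dep_le {F : Set (M → ℝ)} (hF : F ⊆ S.Q) {f : M → ℝ} (hf : f ∈ F) : S.dep F ≤ S.D f :=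
  csInf_le (dep_bdd hF) ⟨f, hf, rfl⟩

theorem le_dep {F : Set (M → ℝ)} (hne : F.Nonempty) {c : ℝ} (h : ∀ f ∈ F, c ≤ S.D f) :
    c ≤ S.dep F :=
  le_csInf (hne.image _) (by rintro _ ⟨f, hf, rfl⟩; exact h f hf)

theorem exists_lt_dep {F : Set (M → ℝ)} (hne : F.Nonempty) {c : ℝ} (h : S.dep F < c) :
    ∃ f ∈ F, S.D f < c := by
  obtain ⟨_, ⟨f, hf, rfl⟩, h'⟩ := exists_lt_of_csInf_lt (hne.image _) h
  exact ⟨f, hf, h'⟩

theorem exists_near_dep {F : Set (M → ℝ)} (hne : F.Nonempty) {ε : ℝ} (hε : 0 < ε) :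
    ∃ f ∈ F, S.D f < S.dep F + ε := exists_lt_dep hne (by linarith)

theorem dep_nonneg {F : Set (M → ℝ)} (hF : F ⊆ S.Q) (hne : F.Nonempty) : 0 ≤ S.dep F :=
  le_dep hne fun _ hf => D_nonneg (hF hf)


theorem JJ_bdd {F G : Set (M → ℝ)} (hF : F ⊆ S.Q) (hG : G ⊆ S.Q) {s : ℝ} (hs : 0 ≤ s) :
    BddBelow (image2 (fun f g => S.val f g s) F G) :=
  ⟨0, by rintro _ ⟨f, hf, g, hg, rfl⟩; exact val_nonneg (hF hf) (hG hg) hs⟩

theorem JJ_le {F G : Set (M → ℝ)} (hF : F ⊆ S.Q) (hG : G ⊆ S.Q) {s : ℝ} (hs : 0 ≤ s)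
    {f g : M → ℝ} (hf : f ∈ F) (hg : g ∈ G) : S.JJ F G s ≤ S.val f g s :=
  csInf_le (JJ_bdd hF hG hs) ⟨f, hf, g, hg, rfl⟩

theorem le_JJ {F G : Set (M → ℝ)} (hF : F.Nonempty) (hG : G.Nonempty) {s c : ℝ}
    (h : ∀ f ∈ F, ∀ g ∈ G, c ≤ S.val f g s) : c ≤ S.JJ F G s :=
  le_csInf (hF.image2 hG) (by rintro _ ⟨f, hf, g, hg, rfl⟩; exact h f hf g hg)

theorem exists_lt_JJ {F G : Set (M → ℝ)} (hF : F.Nonempty) (hG : G.Nonempty) {s c : ℝ}
    (h : S.JJ F G s < c) : ∃ f ∈ F, ∃ g ∈ G, S.val f g s < c := by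
  obtain ⟨_, ⟨f, hf, g, hg, rfl⟩, h'⟩ := exists_lt_of_csInf_lt (hF.image2 hG) h
  exact ⟨f, hf, g, hg, h'⟩


theorem JJ_zero {F G : Set (M → ℝ)} (hF : F ⊆ S.Q) (hG : G ⊆ S.Q) (hFn : F.Nonempty)
    (hGn : G.Nonempty) : S.JJ F G 0 = S.dep F + S.dep G := by
  refine le_antisymm (le_of_forall_pos_le_add fun ε hε => ?_) (le_JJ hFn hGn fun f hf g hg => ?_)
  · obtain ⟨f, hf, h1⟩ := exists_near_dep (S := S) hFn (half_pos hε)
    obtain ⟨g, hg, h2⟩ := exists_near_dep (S := S) hGn (half_pos hε)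
    have := JJ_le hF hG le_rfl hf hg
    rw [val_zero (hF hf) (hG hg)] at this
    linarith
  · rw [val_zero (hF hf) (hG hg)]
    exact add_le_add (dep_le hF hf) (dep_le hG hg)

theorem dep_Q : S.dep S.Q = 0 :=
  le_antisymm (S.D_zero ▸ dep_le subset_rfl S.zero_mem) (dep_nonneg subset_rfl ⟨0, S.zero_mem⟩)

/-- uniform support and bound -/
def SB (K : Set M) (T : ℝ) (f : M → ℝ) : Prop := (∀ x ∉ K, f x = 0) ∧ ∀ x, -T ≤ f x

theorem exists_SB {f : M → ℝ} (hf : f ∈ S.Q) : ∃ K T, IsCompact K ∧ 0 ≤ T ∧ SB K T f := by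
  obtain ⟨C, hC⟩ := (S.cpt f hf).exists_bound_of_continuous (S.cont f hf)
  refine ⟨tsupport f, max C 0, S.cpt f hf, le_max_right _ _,
    fun x hx => image_eq_zero_of_notMem_tsupport hx, fun x => ?_⟩
  have := (abs_le.1 (hC x)).1
  have := le_max_left C 0
  linarith

omit [TopologicalSpace M] in
theorem SB.mono {K K' : Set M} {T T' : ℝ} {f : M → ℝ} (h : SB K T f) (hK : K ⊆ K')
    (hT : T ≤ T') : SB K' T' f :=
  ⟨fun x hx => h.1 x fun h' => hx (hK h'), fun x => by have := h.2 x; linarith⟩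

theorem exists_SB_fin {ι : Type*} [Finite ι] {β : ι → M → ℝ} (hβ : ∀ i, β i ∈ S.Q) :
    ∃ K T, IsCompact K ∧ 0 ≤ T ∧ ∀ i, SB K T (β i) := by
  choose K T hK hT h using fun i => exists_SB (hβ i)
  obtain ⟨C, hC⟩ := (finite_range T).bddAbove
  exact ⟨⋃ i, K i, max C 0, isCompact_iUnion hK, le_max_right _ _, fun i =>
    (h i).mono (subset_iUnion K i) ((hC ⟨i, rfl⟩).trans (le_max_left _ _))⟩

omit [TopologicalSpace M] in
theorem SB.sup {K : Set M} {T : ℝ} {f g : M → ℝ} (hf : SB K T f) (hg : SB K T g) :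
    SB K T (f ⊔ g) :=
  ⟨fun x hx => by simp [hf.1 x hx, hg.1 x hx], fun x => (hf.2 x).trans (le_max_left _ _)⟩

omit [TopologicalSpace M] in
theorem SB.tr {K : Set M} {T : ℝ} {f : M → ℝ} (hf : SB K T f) {s : ℝ} (hs : 0 ≤ s) :
    SB K T (f ⊔ fun _ => -s) :=
  ⟨fun x hx => by simp [hf.1 x hx, hs], fun x => (hf.2 x).trans (le_max_left _ _)⟩

omit [TopologicalSpace M] in
theorem SB.sum {ι : Type*} [Fintype ι] {K : Set M} {T : ℝ} {β : ι → M → ℝ}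
    (hβ : ∀ i, SB K T (β i)) {ρ : ι → ℝ} (h0 : ∀ i, 0 ≤ ρ i) (h1 : ∑ i, ρ i = 1) :
    SB K T (∑ i, ρ i • β i) := by
  refine ⟨fun x hx => ?_, fun x => ?_⟩
  · simp [Finset.sum_apply, fun i => (hβ i).1 x hx]
  · have : ∑ i, ρ i * -T ≤ ∑ i, ρ i * β i x :=
      Finset.sum_le_sum fun i _ => mul_le_mul_of_nonneg_left ((hβ i).2 x) (h0 i)
    rw [← Finset.sum_mul, h1, one_mul] at this
    simpa [Finset.sum_apply] using this

/-- two-sided Lipschitz bound -/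
theorem exists_lip {K : Set M} (hK : IsCompact K) (T : ℝ) : ∃ C : ℝ, 0 ≤ C ∧ ∀ f ∈ S.Q,
    ∀ g ∈ S.Q, SB K T f → SB K T g → ∀ ε : ℝ, 0 ≤ ε → (∀ x, |f x - g x| ≤ ε) →
      |S.D f - S.D g| ≤ C * ε := by
  obtain ⟨C, hC0, hC⟩ := S.lip K hK T
  refine ⟨C, hC0, fun f hf g hg h1 h2 ε hε h => abs_le.2 ⟨?_, ?_⟩⟩
  · have := hC g hg f hf h2.1 h1.1 h2.2 h1.2 ε hε fun x => by
      have := (abs_le.1 (h x)).2; linarith
    linarith
  · have := hC f hf g hg h1.1 h2.1 h1.2 h2.2 ε hε fun x => by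
      have := (abs_le.1 (h x)).1; linarith
    linarith

/-- `D` is continuous along uniformly convergent nets with common support and bound -/
theorem tendsto_D {ι : Type*} {l : Filter ι} {K : Set M} (hK : IsCompact K) {T : ℝ}
    {f : ι → M → ℝ} {g : M → ℝ} (hf : ∀ᶠ i in l, f i ∈ S.Q ∧ SB K T (f i)) (hg : g ∈ S.Q)
    (hg' : SB K T g) (h : ∀ ε > 0, ∀ᶠ i in l, ∀ x, |f i x - g x| ≤ ε) :
    Tendsto (fun i => S.D (f i)) l (𝓝 (S.D g)) := by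
  obtain ⟨C, hC0, hC⟩ := exists_lip (S := S) hK T
  refine Metric.tendsto_nhds.2 fun ε hε => ?_
  have hp : 0 < ε / (C + 1) := by positivity
  filter_upwards [hf, h _ hp] with i h1 h2
  refine lt_of_le_of_lt (hC _ h1.1 g hg h1.2 hg' _ hp.le h2) ?_
  rw [mul_div_assoc', div_lt_iff₀ (by positivity)]
  nlinarith

end DS

variable {E : Type*} [NormedAddCommGroup E] [NormedSpace ℂ E]

/-- admissible families of feasible sets -/
structure Fam (S : DS M) (O : Set E) (F : E → Set (M → ℝ)) : Prop where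
  sub : ∀ e ∈ O, F e ⊆ S.Q
  convex : ∀ e ∈ O, Convex ℝ (F e)
  strict : ∀ K ⊆ O, IsCompact K → ∃ b, (∀ e ∈ K, b ∈ F e) ∧ ∀ e₀ ∈ K, ∀ f ∈ F e₀, ∀ θ : ℝ,
    0 < θ → θ ≤ 1 → ∀ᶠ e in 𝓝 e₀, (1 - θ) • f + θ • b ∈ F e
  mp : ∀ z v : E, DiscIn O z v → ∀ V, S.JP V →
    (∀ w : ℂ, ‖w‖ = 1 → ∃ f ∈ F (z + w • v), V w ≤ f) → V 0 ∈ F z

theorem Fam.nonempty {S : DS M} {O : Set E} {F : E → Set (M → ℝ)} (h : Fam S O F) {e : E}
    (he : e ∈ O) : (F e).Nonempty := by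
  obtain ⟨b, hb, -⟩ := h.strict {e} (singleton_subset_iff.2 he) isCompact_singleton
  exact ⟨b, hb e rfl⟩

/-- feasible set of the constraints `f ≤ a`, `f (κ w) ≤ γ w` for `w ∈ W` -/
def Feas (S : DS M) (a : M → ℝ) {X : Type*} (W : Set X) (κ : X → M) (γ : X → ℝ) :
    Set (M → ℝ) := {f | f ∈ S.Q ∧ f ≤ a ∧ ∀ w ∈ W, f (κ w) ≤ γ w}

theorem Feas.convex (S : DS M) (a : M → ℝ) {X : Type*} (W : Set X) (κ : X → M) (γ : X → ℝ) :
    Convex ℝ (Feas S a W κ γ) := by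
  intro f hf g hg p q hp hq hpq
  refine ⟨S.convex hf.1 hg.1 hp hq hpq, fun x => ?_, fun w hw => ?_⟩
  · have h1 := mul_le_mul_of_nonneg_left (hf.2.1 x) hp
    have h2 := mul_le_mul_of_nonneg_left (hg.2.1 x) hq
    have h3 : p * a x + q * a x = a x := by rw [← add_mul, hpq, one_mul]
    simp only [Pi.add_apply, Pi.smul_apply, smul_eq_mul]; linarith
  · have h1 := mul_le_mul_of_nonneg_left (hf.2.2 w hw) hp
    have h2 := mul_le_mul_of_nonneg_left (hg.2.2 w hw) hq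
    have h3 : p * γ w + q * γ w = γ w := by rw [← add_mul, hpq, one_mul]
    simp only [Pi.add_apply, Pi.smul_apply, smul_eq_mul]; linarith

/-- constraint families are admissible -/
theorem fam_of_con (S : DS M) {O : Set E} (hO : IsOpen O) {a : M → ℝ} (ha : a ∈ S.Q)
    {X : Type*} [TopologicalSpace X] {W : Set X} (hW : IsCompact W) {κ : E → X → M}
    {γ : E → X → ℝ} (hκ : ContinuousOn (fun p : E × X => κ p.1 p.2) (O ×ˢ W))
    (hγ : ContinuousOn (fun p : E × X => γ p.1 p.2) (O ×ˢ W))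
    (hmp : ∀ z v : E, DiscIn O z v → ∀ V, S.JP V → ∀ x ∈ W,
      (∀ w : ℂ, ‖w‖ = 1 → V w (κ (z + w • v) x) ≤ γ (z + w • v) x) → V 0 (κ z x) ≤ γ z x) :
    Fam S O fun e => Feas S a W (κ e) (γ e) := by
  refine ⟨fun e _ f hf => hf.1, fun e _ => Feas.convex S a W _ _, fun K hKO hK => ?_,
    fun z v hz V hV h => ⟨S.J_mem V hV 0 (by simp), fun x => S.J_mp V hV x _ fun w hw => ?_,
      fun x hx => hmp z v hz V hV x hx fun w hw => ?_⟩⟩
  · have hKW : IsCompact (K ×ˢ W) := hK.prod hW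
    have hsub : K ×ˢ W ⊆ O ×ˢ W := prod_mono hKO subset_rfl
    obtain ⟨C, hC⟩ := hKW.exists_bound_of_continuousOn (hγ.mono hsub)
    obtain ⟨Ka, Ta, hKa, hTa, hSa⟩ := DS.exists_SB ha
    obtain ⟨b, hb, hbT⟩ := S.bfun _ ((hKW.image_of_continuousOn (hκ.mono hsub)).union hKa)
      (max (C + 1) Ta)
    have hba : b ≤ a := fun x => by
      by_cases hx : x ∈ Ka
      · have h1 := hbT x (Or.inr hx)
        have h2 := hSa.2 x
        have h3 := le_max_right (C + 1) Ta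
        linarith
      · rw [hSa.1 x hx]; exact S.nonpos b hb x
    have hbγ : ∀ e ∈ K, ∀ x ∈ W, b (κ e x) ≤ γ e x - 1 := fun e he x hx => by
      have h1 := hbT (κ e x) (Or.inl ⟨(e, x), ⟨he, hx⟩, rfl⟩)
      have h2 := (abs_le.1 (hC (e, x) ⟨he, hx⟩)).1
      have h3 := le_max_left (C + 1) Ta
      linarith
    refine ⟨b, fun e he => ⟨hb, hba, fun x hx => by linarith [hbγ e he x hx]⟩,
      fun e₀ he₀ f hf θ h0 h1 => ?_⟩
    have hm : (1 - θ) • f + θ • b ∈ Feas S a W (κ e₀) (γ e₀) :=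
      Feas.convex S a W _ _ hf ⟨hb, hba, fun x hx => by linarith [hbγ e₀ he₀ x hx]⟩
        (by linarith) h0.le (by ring)
    have hc : ContinuousOn (fun p : E × X => ((1 - θ) • f + θ • b) (κ p.1 p.2) - γ p.1 p.2)
        (O ×ˢ W) := ((S.cont _ hm.1).comp_continuousOn hκ).sub hγ
    have key : ∀ᶠ e in 𝓝 e₀, ∀ x ∈ W, x ∈ W →
        ((1 - θ) • f + θ • b) (κ e x) - γ e x < 0 := by
      refine hW.eventually_forall_of_forall_eventually fun x hx => ?_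
      have hlt : ((1 - θ) • f + θ • b) (κ e₀ x) - γ e₀ x < 0 := by
        have h2 := mul_le_mul_of_nonneg_left (hf.2.2 x hx) (by linarith : 0 ≤ 1 - θ)
        have h3 := mul_le_mul_of_nonneg_left (hbγ e₀ he₀ x hx) h0.le
        simp only [Pi.add_apply, Pi.smul_apply, smul_eq_mul]; nlinarith
      have h4 := eventually_nhdsWithin_iff.1
        ((hc (e₀, x) ⟨hKO he₀, hx⟩).eventually (gt_mem_nhds hlt))
      have h5 : ∀ᶠ z : E × X in 𝓝 (e₀, x), z.1 ∈ O :=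
        continuous_fst.continuousAt.eventually (hO.mem_nhds (hKO he₀))
      filter_upwards [h4, h5] with z h6 h7 h8 using h6 ⟨h7, h8⟩
    filter_upwards [key] with e he
    exact ⟨hm.1, hm.2.1, fun x hx => by linarith [he x hx hx]⟩
  · obtain ⟨f, hf, hle⟩ := h w hw
    exact (hle x).trans (hf.2.1 x)
  · obtain ⟨f, hf, hle⟩ := h w hw
    exact (hle _).trans (hf.2.2 x hx)

/-- the trivial family -/
theorem fam_Q (S : DS M) (O : Set E) : Fam S O fun _ => S.Q :=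
  ⟨fun _ _ => subset_rfl, fun _ _ => S.convex, fun _ _ _ => ⟨0, fun _ _ => S.zero_mem,
    fun _ _ _ hf _ h0 h1 => Eventually.of_forall fun _ =>
      S.convex hf S.zero_mem (by linarith) h0.le (by ring)⟩,
    fun _ _ _ V hV _ => S.J_mem V hV 0 (by simp)⟩

/-- pull-back of a family by a continuous affine map -/
theorem Fam.comp_affine {S : DS M} {O : Set E} {F : E → Set (M → ℝ)} (h : Fam S O F)
    {E' : Type*} [NormedAddCommGroup E'] [NormedSpace ℂ E'] (L : E' →L[ℂ] E) (c : E)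
    {O' : Set E'} (hO' : ∀ y ∈ O', c + L y ∈ O) : Fam S O' fun y => F (c + L y) := by
  have hc : Continuous fun y => c + L y := by fun_prop
  have e : ∀ (z v : E') (w : ℂ), c + L (z + w • v) = c + L z + w • L v := fun z v w => by
    rw [map_add, map_smul, add_assoc]
  refine ⟨fun y hy => h.sub _ (hO' y hy), fun y hy => h.convex _ (hO' y hy), fun K hKO hK => ?_,
    fun z v hz V hV hle => h.mp _ (L v) (fun w hw => e z v w ▸ hO' _ (hz w hw)) V hV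
      fun w hw => e z v w ▸ hle w hw⟩
  obtain ⟨b, hb1, hb2⟩ := h.strict _ (image_subset_iff.2 fun y hy => hO' y (hKO hy))
    (hK.image hc)
  exact ⟨b, fun y hy => hb1 _ ⟨y, hy, rfl⟩, fun y hy f hf θ h0 h1 =>
    hc.continuousAt.eventually (hb2 _ ⟨y, hy, rfl⟩ f hf θ h0 h1)⟩

end Crest.Agent.X261.Two
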