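import Crest.Agent.X261.Pole.Lim

/-!
# Row 261, package TWO (helper15), file `Del`

The symmetric multi-level two-point functional `del X Y k p l m T` of two pole families, its
Legendre transform `Xi`, the telescoping bound (T) and the refining triangle inequality (U).
-/

set_option autoImplicit false
set_option linter.dupNamespace false

open Set Filter Topology Finset

noncomputable section

namespace Crest.Agent.X261.Two

open Crest.Agent.X261.Pole

variable {M : Type*} {S : LS M}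

/-! ### shifts -/

section sh

variable {a b w : M → ℝ} {t d : ℝ}

theorem sh_mem (ha : a ∈ S.Q) (ht : 0 ≤ t) : S.P 0 a t ∈ S.Q := S.P_mem 0 S.zero_mem a ha t ht

theorem sh_le (ha : a ∈ S.Q) (ht : 0 ≤ t) (x : M) : S.P 0 a t x ≤ a x + t :=
  S.P_le' 0 S.zero_mem a ha t ht x

theorem le_sh (ha : a ∈ S.Q) (ht : 0 ≤ t) (hb : b ∈ S.Q) (h : ∀ x, b x ≤ a x + t) :
    b ≤ S.P 0 a t := S.le_P 0 S.zero_mem a ha t ht b hb (S.nonpos b hb) h

theorem sub_le_sh (ha : a ∈ S.Q) (ht : 0 ≤ t) (hb : b ∈ S.Q) (hd : 0 ≤ d)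
    (h : ∀ x, b x - d ≤ a x + t) (x : M) : b x - d ≤ S.P 0 a t x :=
  (le_max_right _ _).trans (le_sh ha ht (S.maxs_mem b hb _ (sh_mem ha ht) d hd)
    (fun y => max_le (sh_le ha ht y) (h y)) x)

theorem self_le_sh (ha : a ∈ S.Q) (ht : 0 ≤ t) : a ≤ S.P 0 a t :=
  le_sh ha ht ha fun x => by linarith

theorem sh_zero (ha : a ∈ S.Q) : S.P 0 a 0 = a :=
  le_antisymm (fun x => by simpa using sh_le ha le_rfl x) (self_le_sh ha le_rfl)

theorem sh_eq_zero (ha : a ∈ S.Q) (ht : 0 ≤ t) (h : ∀ x, -t ≤ a x) : S.P 0 a t = 0 :=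
  le_antisymm (S.nonpos _ (sh_mem ha ht))
    (le_sh ha ht S.zero_mem fun x => by have := h x; simp only [Pi.zero_apply]; linarith)

theorem sh_mono (ha : a ∈ S.Q) (hb : b ∈ S.Q) (h : a ≤ b) (ht : 0 ≤ t) (htd : t ≤ d) :
    S.P 0 a t ≤ S.P 0 b d :=
  le_sh hb (ht.trans htd) (sh_mem ha ht) fun x => by
    have := sh_le ha ht x; have := h x; linarith

theorem sh_sh (ha : a ∈ S.Q) (ht : 0 ≤ t) (hd : 0 ≤ d) :
    S.P 0 (S.P 0 a t) d = S.P 0 a (t + d) := by
  have htd := add_nonneg ht hd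
  refine le_antisymm (le_sh ha htd (sh_mem (sh_mem ha ht) hd) fun x => ?_)
    (le_sh (sh_mem ha ht) hd (sh_mem ha htd) fun x => ?_)
  · have := sh_le (sh_mem ha ht) hd x; have := sh_le ha ht x; linarith
  · have := sub_le_sh ha ht (sh_mem ha htd) hd (fun y => by
      have := sh_le ha htd y; linarith) x
    linarith

theorem le_sh_of (ha : a ∈ S.Q) (ht : 0 ≤ t) (hd : 0 ≤ d) (h : ∀ x, -d ≤ a x + t) (x : M) :
    -d ≤ S.P 0 a t x :=
  LS.le_P_of S.zero_mem ha ht hd (fun _ => by simpa using hd) h x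

theorem mn_sh_le (ha : a ∈ S.Q) (hb : b ∈ S.Q) (ht : 0 ≤ t) :
    S.mn (S.P 0 a t) (S.P 0 b t) ≤ S.P 0 (S.mn a b) t := by
  have h1 := sh_mem ha ht
  have h2 := sh_mem hb ht
  have hg := LS.mn_mem h1 h2
  have hm := LS.mn_mem ha hb
  refine le_sh hm ht hg fun x => ?_
  have := LS.le_mn ha hb (S.maxs_mem _ hg _ hm t ht)
    (fun y => max_le (LS.mn_le ha hb y) (by
      have := LS.mn_le h1 h2 y; have := sh_le ha ht y; linarith))
    (fun y => max_le (LS.mn_le' ha hb y) (by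
      have := LS.mn_le' h1 h2 y; have := sh_le hb ht y; linarith)) x
  have h3 := (le_max_right _ _).trans this
  simp only at h3
  linarith

/-- the energy gained by a shift is antitone -/
theorem lam_anti (ha : a ∈ S.Q) (hw : w ∈ S.Q) (h : a ≤ w) (hd : 0 ≤ d) :
    S.D w - S.D (S.P 0 w d) ≤ S.D a - S.D (S.P 0 a d) := by
  have hP := sh_mem hw hd
  have h1 := S.s3 _ hP a ha d hd
  have h2 := S.anti _ (S.maxs_mem _ hP a ha d hd) w hw
    fun x => max_le (h x) (by have := sh_le hw hd x; linarith)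
  have h3 := S.anti _ (S.P_mem _ hP a ha d hd) _ (sh_mem ha hd)
    (le_sh ha hd (S.P_mem _ hP a ha d hd) (S.P_le' _ hP a ha d hd))
  linarith

end sh

variable {X Y Z : PF S} {k : ℝ} {p : ℕ} {l c T t : ℝ} {m : ℕ} {a b w : M → ℝ}

/-- one step of (T) -/
theorem lam_le (hY : Y.Asy k p) (hc : 0 < c) (hw : w ∈ S.Q) {d : ℝ} (hd : 0 ≤ d) :
    S.D w - S.D (S.P 0 w d) ≤ Y.cst k p c w + mc k p c * d := by
  have h1 := (hY.tendsto hc hw 0).sub (hY.tendsto hc S.zero_mem (-d))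
  have : S.D w - S.D (S.P 0 w d) ≤
      Y.dl k p c w + mc k p c * 0 - (Y.dl k p c 0 + mc k p c * -d) := by
    refine ge_of_tendsto h1 ?_
    filter_upwards [eventually_gt_atTop Y.s0] with s hs
    have : S.D w - S.D (S.P 0 w d) + Y.Φ 0 s (c * s - d) ≤ Y.Φ w s (c * s) :=
      (Y.cons s hs _).le_dp hw fun f f1 f2 f3 => by
        have e1 := lam_anti f1 hw f2 hd
        have e2 : Y.Φ 0 s (c * s - d) ≤ S.D (S.P 0 f d) :=
          LS.dp_le (sh_mem f1 hd) (S.nonpos _ (sh_mem f1 hd))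
            (Y.shift s hs _ d f f3 _ (sh_le f1 hd))
        linarith
    rw [add_zero, ← sub_eq_add_neg]
    linarith
  unfold PF.cst
  linarith

/-- (T), general levels -/
theorem tele (hY : Y.Asy k p) (ha : a ∈ S.Q) {d : ℝ} (hd : 0 ≤ d) {c : ℕ → ℝ} (N : ℕ)
    (hc : ∀ j < N, 0 < c j) : S.D a - S.D (S.P 0 a (N * d)) ≤
      ∑ j ∈ range N, Y.cst k p (c j) (S.P 0 a (j * d)) + (∑ j ∈ range N, mc k p (c j)) * d := by
  induction N with
  | zero => simp [sh_zero ha]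
  | succ N ih =>
    have hN : 0 ≤ (N : ℝ) * d := by positivity
    have h1 := ih fun j hj => hc j (hj.trans N.lt_succ_self)
    have h2 := lam_le hY (hc N N.lt_succ_self) (sh_mem ha hN) hd
    rw [sh_sh ha hN hd] at h2
    rw [sum_range_succ, sum_range_succ, Nat.cast_succ, add_mul, add_mul, one_mul]
    linarith

/-- contraction for shifted backgrounds -/
theorem cst_sh_le (hY : Y.Asy k p) (hc : 0 < c) (ha : a ∈ S.Q) (hb : b ∈ S.Q) (h : a ≤ b)
    (ht : 0 ≤ t) : Y.cst k p c (S.P 0 a t) ≤ Y.cst k p c (S.P 0 b t) + (S.D a - S.D b) := by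
  have h1 := hY.cst_tri hc (sh_mem ha ht) (sh_mem hb ht)
  rw [LS.cost_of_le (sh_mem ha ht) (sh_mem hb ht) (sh_mono ha hb h ht le_rfl)] at h1
  linarith [lam_anti ha hb h ht]

theorem cst_sh_mn (hY : Y.Asy k p) (hc : 0 < c) (ha : a ∈ S.Q) (hb : b ∈ S.Q) (ht : 0 ≤ t) :
    Y.cst k p c (S.P 0 (S.mn a b) t) ≤ Y.cst k p c (S.P 0 a t) + Y.cst k p c (S.P 0 b t) :=
  (hY.cst_anti hc (LS.mn_mem (sh_mem ha ht) (sh_mem hb ht)) (sh_mem (LS.mn_mem ha hb) ht)
    (mn_sh_le ha hb ht)).trans (hY.cst_mn hc (sh_mem ha ht) (sh_mem hb ht))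

/-- a stronger pole makes every background cheaper; in particular `cst` is chart independent -/
theorem cst_le_cst {Y' : PF S} (hY : Y.Asy k p) (hY' : Y'.Asy k p) (hc : 0 < c) (ha : a ∈ S.Q)
    {μ τ : ℝ} (h : ∀ᶠ s in atTop, ∀ f ∈ S.Q, f ∈ Y.F s (c * s) → f ∈ Y'.F (s + μ) (c * s - τ)) :
    Y.cst k p c a ≤ Y'.cst k p c a := by
  have h1 := (hY'.tendsto_cst hc ha (-(c * μ) - τ)).comp
    (tendsto_atTop_add_const_right atTop μ tendsto_id)
  refine le_of_tendsto_of_tendsto (hY.tendsto_cst0 hc ha) h1 ?_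
  filter_upwards [h, eventually_gt_atTop Y.s0, eventually_gt_atTop (Y'.s0 - μ)] with s e1 e2 e3
  have := (Y'.cons (s + μ) (by linarith) (c * s - τ)).dp_sub (Y.cons s e2 (c * s)) e1 ha
    S.zero_mem (S.nonpos a ha)
  simp only [Function.comp, id, PF.Φ]
  rw [show c * (s + μ) + (-(c * μ) - τ) = c * s - τ by ring]
  linarith

/-! ### levels -/

/-- the levels `l (1 - j / m)` -/
def lev (l : ℝ) (m j : ℕ) : ℝ := l * (1 - j / m)

/-- mean mass of the levels -/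
def kap (k : ℝ) (p : ℕ) (l : ℝ) (m : ℕ) : ℝ := (∑ j ∈ range m, mc k p (lev l m j)) / m

theorem lev_zero (l : ℝ) (m : ℕ) : lev l m 0 = l := by simp [lev]

theorem lev_self (l : ℝ) (hm : 0 < m) : lev l m m = 0 := by
  have : (m : ℝ) ≠ 0 := by positivity
  simp [lev, this]

theorem lev_pos (hl : 0 < l) {j : ℕ} (hj : j < m) : 0 < lev l m j := by
  have h1 : (j : ℝ) < m := by exact_mod_cast hj
  have h2 : (0 : ℝ) < m := lt_of_le_of_lt (Nat.cast_nonneg j) h1
  exact mul_pos hl (sub_pos.2 ((div_lt_one h2).2 h1))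

theorem lev_nonneg (hl : 0 < l) (hm : 0 < m) {j : ℕ} (hj : j ≤ m) : 0 ≤ lev l m j := by
  rcases hj.eq_or_lt with rfl | hj
  · exact (lev_self l hm).ge
  · exact (lev_pos hl hj).le

theorem lev_le (hl : 0 < l) (m j : ℕ) : lev l m j ≤ l := by
  have : 0 ≤ (j : ℝ) / m := by positivity
  unfold lev; nlinarith

theorem lev_succ (l : ℝ) (m j : ℕ) : lev l m (j + 1) = lev l m j - l / m := by
  unfold lev; push_cast; ring

theorem lev_mul (l : ℝ) (m j : ℕ) {r : ℕ} (hr : 0 < r) : lev l (m * r) (j * r) = lev l m j := by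
  have : (r : ℝ) ≠ 0 := by positivity
  unfold lev; push_cast; rw [mul_div_mul_right _ _ this]

theorem kc_tangent (hk : 0 ≤ k) (p : ℕ) {c c' : ℝ} (hc : 0 ≤ c) (hc' : 0 ≤ c') :
    kc k p c + mc k p c * (c' - c) ≤ kc k p c' := by
  have := pow_add_mul_le_add_pow (b := c' - c) hc (by linarith) (p + 1)
  rw [add_sub_cancel, Nat.add_sub_cancel] at this
  have := mul_le_mul_of_nonneg_left this hk
  unfold kc mc
  push_cast at this
  linarith

/-- lower Riemann bound -/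
theorem kc_le_sum (hk : 0 ≤ k) (hl : 0 < l) (hm : 0 < m) {i : ℕ} (hi : i ≤ m) :
    kc k p (lev l m i) ≤ (∑ j ∈ Ico i m, mc k p (lev l m j)) * (l / m) := by
  have key : ∀ N, i ≤ N → N ≤ m → kc k p (lev l m i) ≤
      (∑ j ∈ Ico i N, mc k p (lev l m j)) * (l / m) + kc k p (lev l m N) := by
    intro N hN
    induction N, hN using Nat.le_induction with
    | base => simp
    | succ N hN ih =>
      intro h
      have h1 := ih (by omega)
      have h2 := kc_tangent hk p (lev_nonneg hl hm (show N ≤ m by omega)) (lev_nonneg hl hm h)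
      rw [sum_Ico_succ_top hN, add_mul]
      rw [lev_succ] at h2 ⊢
      linarith
  simpa [lev_self l hm, kc] using key m hi le_rfl

/-- upper Riemann bound -/
theorem sum_le_kc (hk : 0 ≤ k) (hl : 0 < l) (hm : 0 < m) {i : ℕ} (hi : i < m) :
    (∑ j ∈ Ico i m, mc k p (lev l m j)) * (l / m) ≤
      kc k p (lev l m i) + mc k p (lev l m i) * (l / m) := by
  have key : ∀ N, i ≤ N → N < m → (∑ j ∈ Ico i (N + 1), mc k p (lev l m j)) * (l / m) +
      kc k p (lev l m N) ≤ kc k p (lev l m i) + mc k p (lev l m i) * (l / m) := by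
    intro N hN
    induction N, hN using Nat.le_induction with
    | base => intro _; simp [add_comm]
    | succ N hN ih =>
      intro h
      have h1 := ih (by omega)
      have h2 := kc_tangent hk p (lev_nonneg hl hm h.le) (lev_nonneg hl hm (show N ≤ m by omega))
      rw [sum_Ico_succ_top (by omega), add_mul]
      rw [show lev l m N - lev l m (N + 1) = l / m by rw [lev_succ]; ring] at h2
      linarith
  have h1 := key (m - 1) (by omega) (by omega)
  rw [Nat.sub_add_cancel hm] at h1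
  linarith [kc_nonneg hk p (lev_nonneg hl hm (Nat.sub_le m 1))]

theorem le_kap (hk : 0 ≤ k) (hl : 0 < l) (hm : 0 < m) : kc k p l / l ≤ kap k p l m := by
  have := kc_le_sum (p := p) hk hl hm (Nat.zero_le m)
  rw [lev_zero, ← range_eq_Ico] at this
  rw [div_le_iff₀ hl, kap, div_mul_eq_mul_div, mul_div_assoc]
  exact this

theorem kap_le (hk : 0 ≤ k) (hl : 0 < l) (hm : 0 < m) :
    kap k p l m ≤ kc k p l / l + mc k p l / m := by
  have := sum_le_kc (p := p) hk hl hm hm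
  rw [lev_zero, ← range_eq_Ico] at this
  refine le_of_mul_le_mul_right ?_ hl
  rw [kap, div_mul_eq_mul_div, mul_div_assoc, add_mul, div_mul_cancel₀ _ hl.ne',
    div_mul_eq_mul_div, mul_div_assoc]
  exact this


/-! ### the two-point functional -/

/-- admissible backgrounds -/
def Adm (S : LS M) (T : ℝ) : Set (M → ℝ) := {a | a ∈ S.Q ∧ ∀ x, -T ≤ a x}

/-- total cost of the ray of `a` -/
def sc (Y : PF S) (k : ℝ) (p : ℕ) (l : ℝ) (m : ℕ) (T : ℝ) (a : M → ℝ) : ℝ :=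
  ∑ j ∈ range m, Y.cst k p (lev l m j) (S.P 0 a (j * (T / m)))

/-- the bracket -/
def br (X Y : PF S) (k : ℝ) (p : ℕ) (l : ℝ) (m : ℕ) (T : ℝ) (a : M → ℝ) : ℝ :=
  sc X k p l m T a + sc Y k p l m T a - S.D a + kap k p l m * T

/-- `δ^m_T (x, y)` -/
def del (X Y : PF S) (k : ℝ) (p : ℕ) (l : ℝ) (m : ℕ) (T : ℝ) : ℝ :=
  sInf (br X Y k p l m T '' Adm S T)

/-- `Ξ^m_t (x, y)` -/
def Xi (X Y : PF S) (k : ℝ) (p : ℕ) (l : ℝ) (m : ℕ) (t : ℝ) : EReal :=
  ⨅ T ∈ Set.Ici (0 : ℝ), ((del X Y k p l m T - t * T : ℝ) : EReal)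

/-- `Φ^m (y)` -/
def Ph (Y : PF S) (k : ℝ) (p : ℕ) (l : ℝ) (m : ℕ) : ℝ := ∑ j ∈ range m, Y.dl k p (lev l m j) 0

theorem zero_adm (hT : 0 ≤ T) : (0 : M → ℝ) ∈ Adm S T := ⟨S.zero_mem, fun _ => by simpa using hT⟩

theorem step_nonneg (hT : 0 ≤ T) (m j : ℕ) : 0 ≤ (j : ℝ) * (T / m) := by positivity

theorem sc_nonneg (hY : Y.Asy k p) (hl : 0 < l) (hT : 0 ≤ T) (ha : a ∈ S.Q) :
    0 ≤ sc Y k p l m T a :=
  sum_nonneg fun j hj =>
    hY.cst_nonneg (lev_pos hl (mem_range.1 hj)) (sh_mem ha (step_nonneg hT m j))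

theorem sc_zero (hT : 0 ≤ T) : sc Y k p l m T 0 = 0 :=
  sum_eq_zero fun j _ => by
    rw [sh_eq_zero S.zero_mem (step_nonneg hT m j) fun _ => by simpa using step_nonneg hT m j,
      PF.cst, sub_self]

/-- (T) -/
theorem D_le_sc (hY : Y.Asy k p) (hl : 0 < l) (hm : 0 < m) (hT : 0 ≤ T) (ha : a ∈ Adm S T) :
    S.D a ≤ kap k p l m * T + sc Y k p l m T a := by
  have hm' : (m : ℝ) ≠ 0 := by positivity
  have := tele hY ha.1 (d := T / m) (by positivity) (c := lev l m) m fun j hj => lev_pos hl hj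
  rw [mul_div_cancel₀ _ hm', sh_eq_zero ha.1 hT ha.2, S.D_zero] at this
  rw [kap, div_mul_eq_mul_div, mul_div_assoc, sc]
  linarith

theorem br_comm (X Y : PF S) : br X Y k p l m T = br Y X k p l m T := by
  funext a; unfold br; ring



theorem sc_le_br (hY : Y.Asy k p) (hl : 0 < l) (hm : 0 < m) (hT : 0 ≤ T) (ha : a ∈ Adm S T) :
    sc X k p l m T a ≤ br X Y k p l m T a := by
  have := D_le_sc hY hl hm hT ha
  unfold br; linarith

theorem sc_le_br' (hX : X.Asy k p) (hl : 0 < l) (hm : 0 < m) (hT : 0 ≤ T) (ha : a ∈ Adm S T) :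
    sc Y k p l m T a ≤ br X Y k p l m T a := br_comm Y X ▸ sc_le_br hX hl hm hT ha

theorem def_le_br (hX : X.Asy k p) (hY : Y.Asy k p) (hl : 0 < l) (hT : 0 ≤ T) (ha : a ∈ S.Q) :
    kap k p l m * T - S.D a ≤ br X Y k p l m T a := by
  have := sc_nonneg (m := m) hX hl hT ha
  have := sc_nonneg (m := m) hY hl hT ha
  unfold br; linarith

theorem br_nonneg (hX : X.Asy k p) (hY : Y.Asy k p) (hl : 0 < l) (hm : 0 < m) (hT : 0 ≤ T)
    (ha : a ∈ Adm S T) : 0 ≤ br X Y k p l m T a :=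
  (sc_nonneg hX hl hT ha.1).trans (sc_le_br hY hl hm hT ha)

theorem del_le (hX : X.Asy k p) (hY : Y.Asy k p) (hl : 0 < l) (hm : 0 < m) (hT : 0 ≤ T)
    (ha : a ∈ Adm S T) : del X Y k p l m T ≤ br X Y k p l m T a :=
  csInf_le ⟨0, by rintro _ ⟨b, hb, rfl⟩; exact br_nonneg hX hY hl hm hT hb⟩ ⟨a, ha, rfl⟩

theorem le_del (hT : 0 ≤ T) {r : ℝ} (h : ∀ a ∈ Adm S T, r ≤ br X Y k p l m T a) :
    r ≤ del X Y k p l m T :=
  le_csInf ⟨_, 0, zero_adm hT, rfl⟩ (by rintro _ ⟨a, ha, rfl⟩; exact h a ha)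

theorem exists_br_lt (hT : 0 ≤ T) {r : ℝ} (h : del X Y k p l m T < r) :
    ∃ a ∈ Adm S T, br X Y k p l m T a < r := by
  obtain ⟨_, ⟨a, ha, rfl⟩, h'⟩ := exists_lt_of_csInf_lt
    (Set.Nonempty.image (br X Y k p l m T) ⟨0, zero_adm hT⟩) h
  exact ⟨a, ha, h'⟩

theorem del_nonneg (hX : X.Asy k p) (hY : Y.Asy k p) (hl : 0 < l) (hm : 0 < m) (hT : 0 ≤ T) :
    0 ≤ del X Y k p l m T := le_del hT fun _ ha => br_nonneg hX hY hl hm hT ha

theorem del_le_kap (hX : X.Asy k p) (hY : Y.Asy k p) (hl : 0 < l) (hm : 0 < m) (hT : 0 ≤ T) :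
    del X Y k p l m T ≤ kap k p l m * T := by
  have := del_le hX hY hl hm hT (zero_adm hT)
  rwa [br, sc_zero hT, sc_zero hT, S.D_zero, add_zero, sub_zero, zero_add] at this

theorem del_zero (hX : X.Asy k p) (hY : Y.Asy k p) (hl : 0 < l) (hm : 0 < m) :
    del X Y k p l m 0 = 0 :=
  le_antisymm (by simpa using del_le_kap hX hY hl hm le_rfl) (del_nonneg hX hY hl hm le_rfl)

theorem Xi_le (hT : 0 ≤ T) : Xi X Y k p l m t ≤ ((del X Y k p l m T - t * T : ℝ) : EReal) :=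
  biInf_le (fun T => ((del X Y k p l m T - t * T : ℝ) : EReal)) (show T ∈ Set.Ici (0 : ℝ) from hT)

theorem Xi_nonpos (hX : X.Asy k p) (hY : Y.Asy k p) (hl : 0 < l) (hm : 0 < m) :
    Xi X Y k p l m t ≤ 0 := by
  simpa [del_zero hX hY hl hm] using Xi_le (X := X) (Y := Y) (k := k) (p := p) (l := l) (m := m)
    (t := t) le_rfl

theorem exists_of_Xi_lt {r : ℝ} (h : Xi X Y k p l m t < r) :
    ∃ T, 0 ≤ T ∧ del X Y k p l m T - t * T < r := by
  simp only [Xi, iInf_lt_iff] at h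
  obtain ⟨T, hT, h⟩ := h
  exact ⟨T, hT, EReal.coe_lt_coe_iff.1 h⟩



theorem Xi_congr {X' Y' : PF S} (hX : ∀ j < m, ∀ a ∈ S.Q,
      X.cst k p (lev l m j) a = X'.cst k p (lev l m j) a)
    (hY : ∀ j < m, ∀ a ∈ S.Q, Y.cst k p (lev l m j) a = Y'.cst k p (lev l m j) a) :
    Xi X Y k p l m t = Xi X' Y' k p l m t := by
  refine iInf_congr fun T => iInf_congr fun hT => ?_
  have : del X Y k p l m T = del X' Y' k p l m T := by
    unfold del
    refine congrArg _ (image_congr fun a ha => ?_)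
    unfold br sc
    rw [sum_congr rfl fun j hj => hX j (mem_range.1 hj) _ (sh_mem ha.1 (step_nonneg hT m j)),
      sum_congr rfl fun j hj => hY j (mem_range.1 hj) _ (sh_mem ha.1 (step_nonneg hT m j))]
  rw [this]

/-! ### the refining triangle inequality -/

theorem sc_le_sc_mul (hX : X.Asy k p) (hl : 0 < l) (hT : 0 ≤ T) (ha : a ∈ S.Q) {r : ℕ}
    (hr : 0 < r) : sc X k p l m T a ≤ sc X k p l (m * r) T a := by
  have hr' : (r : ℝ) ≠ 0 := by positivity
  have e : sc X k p l m T a = ∑ j ∈ (range m).image (· * r),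
      X.cst k p (lev l (m * r) j) (S.P 0 a (j * (T / (m * r : ℕ)))) := by
    rw [sum_image fun i _ j _ h => Nat.eq_of_mul_eq_mul_right hr h]
    refine sum_congr rfl fun j _ => ?_
    rw [lev_mul l m j hr]
    congr 2
    push_cast
    rw [← div_div, mul_assoc, mul_div_cancel₀ _ hr']
  rw [e]
  refine sum_le_sum_of_subset_of_nonneg (fun j hj => ?_) fun j hj _ =>
    hX.cst_nonneg (lev_pos hl (mem_range.1 hj)) (sh_mem ha (step_nonneg hT _ j))
  obtain ⟨i, hi, rfl⟩ := mem_image.1 hj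
  exact mem_range.2 (Nat.mul_lt_mul_of_pos_right (mem_range.1 hi) hr)

theorem sc_contr (hX : X.Asy k p) (hl : 0 < l) (hT : 0 ≤ T) (ha : a ∈ S.Q) (hb : b ∈ S.Q)
    (h : a ≤ b) : sc X k p l m T a ≤ sc X k p l m T b + m * (S.D a - S.D b) := by
  have := sum_le_sum fun j (hj : j ∈ range m) =>
    cst_sh_le hX (lev_pos hl (mem_range.1 hj)) ha hb h (step_nonneg hT m j)
  rwa [sum_add_distrib, sum_const, card_range, nsmul_eq_mul] at this

theorem sc_mn (hX : X.Asy k p) (hl : 0 < l) (hT : 0 ≤ T) (ha : a ∈ S.Q) (hb : b ∈ S.Q) :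
    sc X k p l m T (S.mn a b) ≤ sc X k p l m T a + sc X k p l m T b := by
  have := sum_le_sum fun j (hj : j ∈ range m) =>
    cst_sh_mn hX (lev_pos hl (mem_range.1 hj)) ha hb (step_nonneg hT m j)
  rwa [sum_add_distrib] at this

/-- (U) for `δ` -/
theorem del_tri (hX : X.Asy k p) (hY : Y.Asy k p) (hZ : Z.Asy k p) (hl : 0 < l) (hm : 0 < m)
    {r : ℕ} (hr : 0 < r) (hT : 0 ≤ T) : del X Z k p l m T ≤
      (3 * m + 2) * (del X Y k p l (m * r) T + del Y Z k p l (m * r) T) + mc k p l / m * T := by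
  have hm' : 0 < m * r := Nat.mul_pos hm hr
  have hk := hX.k_nonneg
  have key : ∀ a₁ ∈ Adm S T, ∀ a₂ ∈ Adm S T, del X Z k p l m T ≤
      (3 * m + 2) * (br X Y k p l (m * r) T a₁ + br Y Z k p l (m * r) T a₂) +
        mc k p l / m * T := fun a₁ h₁ a₂ h₂ => by
    have ha : S.mn a₁ a₂ ∈ Adm S T := ⟨LS.mn_mem h₁.1 h₂.1, LS.le_mn_of h₁.1 h₂.1 hT h₁.2 h₂.2⟩
    have e0 := del_le hX hZ hl hm hT ha
    have e1 := D_le_sc hY hl hm' hT ha
    have e2 := sc_mn (m := m * r) hY hl hT h₁.1 h₂.1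
    have e3 := sc_le_br' (Y := Y) hX hl hm' hT h₁
    have e4 := sc_le_br (X := Y) hZ hl hm' hT h₂
    have e5 := def_le_br (m := m * r) hX hY hl hT h₁.1
    have e6 := def_le_br (m := m * r) hY hZ hl hT h₂.1
    have e7 := sc_contr (m := m) hX hl hT ha.1 h₁.1 (LS.mn_le h₁.1 h₂.1)
    have e8 := sc_contr (m := m) hZ hl hT ha.1 h₂.1 (LS.mn_le' h₁.1 h₂.1)
    have e9 := sc_le_sc_mul (m := m) hX hl hT h₁.1 hr
    have e10 := sc_le_sc_mul (m := m) hZ hl hT h₂.1 hr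
    have e11 := sc_le_br (X := X) hY hl hm' hT h₁
    have e12 := sc_le_br' (Y := Z) hY hl hm' hT h₂
    have e13 := S.anti _ ha.1 _ h₁.1 (LS.mn_le h₁.1 h₂.1)
    have e14 := mul_le_mul_of_nonneg_right
      (show kap k p l m ≤ kap k p l (m * r) + mc k p l / m by
        linarith [kap_le (p := p) hk hl hm, le_kap (p := p) hk hl hm']) hT
    have e15 := br_nonneg hY hZ hl hm' hT h₂
    set d₁ := br X Y k p l (m * r) T a₁
    set d₂ := br Y Z k p l (m * r) T a₂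
    have hm0 : (0 : ℝ) ≤ m := Nat.cast_nonneg m
    have f1 := mul_le_mul_of_nonneg_left
      (show S.D (S.mn a₁ a₂) - S.D a₁ ≤ 2 * d₁ + d₂ by linarith) hm0
    have f2 := mul_le_mul_of_nonneg_left
      (show S.D (S.mn a₁ a₂) - S.D a₂ ≤ d₁ + 2 * d₂ by linarith) hm0
    unfold br at e0
    nlinarith
  have hp : (0 : ℝ) < 3 * m + 2 := by positivity
  refine le_of_forall_pos_le_add fun ε hε => ?_
  have h2 : 0 < ε / (2 * (3 * m + 2)) := by positivity
  obtain ⟨a₁, h₁, g₁⟩ := exists_br_lt hT (lt_add_of_pos_right (del X Y k p l (m * r) T) h2)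
  obtain ⟨a₂, h₂, g₂⟩ := exists_br_lt hT (lt_add_of_pos_right (del Y Z k p l (m * r) T) h2)
  have e := mul_le_mul_of_nonneg_left (add_le_add g₁.le g₂.le) hp.le
  have e' : (3 * (m : ℝ) + 2) * (2 * (ε / (2 * (3 * m + 2)))) = ε := by field_simp
  have := key a₁ h₁ a₂ h₂
  nlinarith

/-- `T ↦ δ_T` lies below its chords from the origin -/
def Star (X Y : PF S) (k : ℝ) (p : ℕ) (l : ℝ) (m : ℕ) : Prop :=
  ∀ T θ : ℝ, 0 ≤ T → 0 ≤ θ → θ ≤ 1 → del X Y k p l m (θ * T) ≤ θ * del X Y k p l m T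

theorem Star.le (h : Star X Y k p l m) {T' : ℝ} (hT : 0 ≤ T) (hTT : T ≤ T')
    (h' : del X Y k p l m T' ≤ t * T') (hT' : 0 < T') : del X Y k p l m T ≤ t * T := by
  have h1 := h T' (T / T') hT'.le (by positivity) ((div_le_one hT').2 hTT)
  rw [div_mul_cancel₀ _ hT'.ne'] at h1
  have h2 := mul_le_mul_of_nonneg_left h' (show 0 ≤ T / T' by positivity)
  rw [mul_left_comm, div_mul_cancel₀ _ hT'.ne'] at h2
  exact h1.trans h2

/-- (U) for `Ξ`, real form -/
theorem Xi_tri_lt (hX : X.Asy k p) (hY : Y.Asy k p) (hZ : Z.Asy k p) (hl : 0 < l) (hm : 0 < m)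
    {r : ℕ} (hr : 0 < r) (s₁ : Star X Y k p l (m * r)) (s₂ : Star Y Z k p l (m * r))
    {t' lam : ℝ} (ht' : 0 < t') (hlam : 0 < lam)
    (hpar : (3 * m + 2) * (2 * t') + mc k p l / m + lam * t' ≤ t) {b : ℝ}
    (h₁ : Xi X Y k p l (m * r) t' < b) (h₂ : Xi Y Z k p l (m * r) t' < b) :
    Xi X Z k p l m t ≤ ((lam * b : ℝ) : EReal) := by
  have hm' : 0 < m * r := Nat.mul_pos hm hr
  rcases lt_or_ge 0 b with hb | hb
  · exact (Xi_nonpos hX hZ hl hm).trans (EReal.coe_nonneg.2 (by positivity))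
  obtain ⟨T₁, k₁, g₁⟩ := exists_of_Xi_lt h₁
  obtain ⟨T₂, k₂, g₂⟩ := exists_of_Xi_lt h₂
  have n₁ := del_nonneg hX hY hl hm' k₁
  have n₂ := del_nonneg hY hZ hl hm' k₂
  have p₁ : 0 < T₁ := pos_of_mul_pos_left (b := t') (by nlinarith) ht'.le
  have p₂ : 0 < T₂ := pos_of_mul_pos_left (b := t') (by nlinarith) ht'.le
  have hT : 0 ≤ min T₁ T₂ := le_min k₁ k₂
  have e₁ := s₁.le (t := t') hT (min_le_left _ _) (by linarith) p₁
  have e₂ := s₂.le (t := t') hT (min_le_right _ _) (by linarith) p₂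
  have e₃ := del_tri hX hY hZ hl hm hr hT
  have e₄ : -b ≤ t' * min T₁ T₂ := by
    rw [mul_min_of_nonneg _ _ ht'.le]; exact le_min (by linarith) (by linarith)
  refine (Xi_le hT).trans (EReal.coe_le_coe_iff.2 ?_)
  have e₅ := mul_le_mul_of_nonneg_left (add_le_add e₁ e₂) (show (0 : ℝ) ≤ 3 * m + 2 by positivity)
  have e₆ := mul_le_mul_of_nonneg_right hpar hT
  have e₇ := mul_le_mul_of_nonneg_left e₄ hlam.le
  nlinarith

/-- (U) for `Ξ` -/
theorem Xi_tri (hX : X.Asy k p) (hY : Y.Asy k p) (hZ : Z.Asy k p) (hl : 0 < l) (hm : 0 < m)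
    {r : ℕ} (hr : 0 < r) (s₁ : Star X Y k p l (m * r)) (s₂ : Star Y Z k p l (m * r))
    {t' lam : ℝ} (ht' : 0 < t') (hlam : 0 < lam)
    (hpar : (3 * m + 2) * (2 * t') + mc k p l / m + lam * t' ≤ t) :
    Xi X Z k p l m t ≤
      (lam : EReal) * max (Xi X Y k p l (m * r) t') (Xi Y Z k p l (m * r) t') := by
  have key : ∀ b : ℝ, max (Xi X Y k p l (m * r) t') (Xi Y Z k p l (m * r) t') < b →
      Xi X Z k p l m t ≤ ((lam * b : ℝ) : EReal) := fun b hb =>
    Xi_tri_lt hX hY hZ hl hm hr s₁ s₂ ht' hlam hpar ((le_max_left _ _).trans_lt hb)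
      ((le_max_right _ _).trans_lt hb)
  generalize max (Xi X Y k p l (m * r) t') (Xi Y Z k p l (m * r) t') = μ at key
  generalize Xi X Z k p l m t = ξ at key
  induction μ with
  | top => rw [EReal.coe_mul_top_of_pos hlam]; exact le_top
  | bot =>
    rw [EReal.coe_mul_bot_of_pos hlam]
    refine le_of_forall_gt_imp_ge_of_dense fun q hq => ?_
    obtain ⟨b, -, hb⟩ := EReal.lt_iff_exists_real_btwn.1 hq
    have := key (b / lam) (EReal.bot_lt_coe _)
    rw [mul_div_cancel₀ _ hlam.ne'] at this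
    exact this.trans hb.le
  | coe μ =>
    rw [← EReal.coe_mul]
    refine le_of_forall_gt_imp_ge_of_dense fun q hq => ?_
    obtain ⟨b, hb1, hb⟩ := EReal.lt_iff_exists_real_btwn.1 hq
    have := key (b / lam) (EReal.coe_lt_coe_iff.2 (by
      rw [lt_div_iff₀ hlam, mul_comm]; exact EReal.coe_lt_coe_iff.1 hb1))
    rw [mul_div_cancel₀ _ hlam.ne'] at this
    exact this.trans hb.le

/-- the parameters of note 967: `t_m = 3 mc(l) / m`, `r ≥ 30 m`, `λ = r / 3` -/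
theorem par_ok {μ : ℝ} (hμ : 0 ≤ μ) (hm : 0 < m) {r : ℕ} (hr : 30 * m ≤ r) :
    (3 * m + 2) * (2 * (3 * μ / (m * r : ℕ))) + μ / m + (r / 3 : ℝ) * (3 * μ / (m * r : ℕ)) ≤
      3 * μ / m := by
  have h1 : (1 : ℝ) ≤ m := by exact_mod_cast hm
  have h2 : 30 * (m : ℝ) ≤ r := by exact_mod_cast hr
  have h3 : (0 : ℝ) < r := by linarith
  have h4 : (3 * m + 2) * (2 * (3 * μ / (m * r : ℕ))) ≤ μ / m := by
    push_cast
    rw [show (3 * (m : ℝ) + 2) * (2 * (3 * μ / (m * r))) = μ / m * ((18 * m + 12) / r) by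
      field_simp; ring]
    exact mul_le_of_le_one_right (by positivity) ((div_le_one h3).2 (by linarith))
  have h5 : (r / 3 : ℝ) * (3 * μ / (m * r : ℕ)) = μ / m := by push_cast; field_simp
  rw [h5, show 3 * μ / m = μ / m + μ / m + μ / m by ring]
  linarith

end Crest.Agent.X261.Two
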